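import Mathlib
import Crest.Agent.X212.Line51.Glue
import Crest.Agent.X212.Dr59.Hom

-- ▼ part X212/Weil93/Cov
section

/-!
# X212 / Weil93, part Cov (helper93): towers of covers, integer solutions of integer equations

* `exists_tower` : a finite open cover `V i ⊆ D i` of a compact space with good sets
  `D i ⊆ C j`, `C i ⊆ B j` whenever `V i` meets `V j`;
* `exists_int_span` : real solutions of integer linear equations are real combinations of finitely
  many integer solutions.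
-/

set_option autoImplicit false
set_option linter.style.haveILetI false

open Set Filter Topology Function
open scoped Uniformity

namespace Crest.Agent.X212.Weil93

section Tower

variable {X : Type*}

theorem exists_step [UniformSpace X] [CompactSpace X] {G : Set X → Prop}
    (hG : ∀ x, ∀ O ∈ 𝓝 x, ∃ U ∈ 𝓝 x, G U ∧ U ⊆ O) {W : Set (X × X)} (hW : W ∈ 𝓤 X) :
    ∃ W' ∈ 𝓤 X, ∃ N : X → Set X, ∀ x, G (N x) ∧ UniformSpace.ball x W' ⊆ N x ∧
      ∀ y, (y, x) ∈ W' → N x ⊆ UniformSpace.ball y W := by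
  obtain ⟨T, hT, hTW⟩ := comp_mem_uniformity_sets hW
  obtain ⟨S, hS, hs, hST⟩ := comp_symm_of_uniformity hT
  choose U h1 h2 h3 using fun y => hG y _ (UniformSpace.ball_mem_nhds y hS)
  obtain ⟨L, hL, hl⟩ := lebesgue_number_lemma_nhds (K := univ) isCompact_univ fun x _ => h1 x
  choose c hc using fun x => hl x (mem_univ x)
  refine ⟨L ∩ T, inter_mem hL hT, fun x => U (c x), fun x => ⟨h2 _, fun z hz => hc x hz.1, ?_⟩⟩
  intro y hy z hz
  have a1 : (c x, x) ∈ S := h3 _ (hc x (refl_mem_uniformity hL))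
  have a2 : (c x, z) ∈ S := h3 _ hz
  exact hTW ⟨x, hy.2, hST ⟨c x, hs a1, a2⟩⟩

/-- a finite cover with three levels of good sets -/
theorem exists_tower [TopologicalSpace X] [CompactSpace X] [T2Space X] {G : Set X → Prop}
    (hG : ∀ x, ∀ O ∈ 𝓝 x, ∃ U ∈ 𝓝 x, G U ∧ U ⊆ O) :
    ∃ (n : ℕ) (V D C B : Fin n → Set X), (∀ i, IsOpen (V i)) ∧ (∀ x, ∃ i, x ∈ V i) ∧
      (∀ i, G (D i) ∧ G (C i) ∧ G (B i)) ∧ (∀ i, V i ⊆ D i) ∧
      ∀ i j, (V i ∩ V j).Nonempty → D i ⊆ C j ∧ C i ⊆ B j := by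
  letI : UniformSpace X := uniformSpaceOfCompactR1
  obtain ⟨W1, h1, B, hB⟩ := exists_step hG (W := univ) univ_mem
  obtain ⟨W2, h2, C, hC⟩ := exists_step hG h1
  obtain ⟨W3, h3, D, hD⟩ := exists_step hG h2
  obtain ⟨S, hS, hs, hSW⟩ := comp_symm_of_uniformity (inter_mem h2 h3)
  obtain ⟨t, ht⟩ := isCompact_univ.elim_finite_subcover
    (fun x => interior (UniformSpace.ball x S)) (fun _ => isOpen_interior) fun x _ =>
      mem_iUnion.2 ⟨x, mem_interior_iff_mem_nhds.2 (UniformSpace.ball_mem_nhds x hS)⟩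
  let e : Fin t.card → X := fun i => t.equivFin.symm i
  have ib : ∀ {x z}, z ∈ interior (UniformSpace.ball x S) → (x, z) ∈ S := fun h =>
    interior_subset (s := UniformSpace.ball _ S) h
  refine ⟨t.card, fun i => interior (UniformSpace.ball (e i) S), fun i => D (e i), fun i => C (e i),
    fun i => B (e i), fun _ => isOpen_interior, fun x => ?_,
    fun i => ⟨(hD _).1, (hC _).1, (hB _).1⟩, fun i z hz => (hD _).2.1 ?_, fun i j ⟨z, hi, hj⟩ => ?_⟩
  · obtain ⟨y, hy, h⟩ := mem_iUnion₂.1 (ht (mem_univ x))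
    exact ⟨t.equivFin ⟨y, hy⟩, by simpa [e] using h⟩
  · exact (hSW ⟨z, ib hz, refl_mem_uniformity hS⟩).2
  · have k : (e j, e i) ∈ W2 ∩ W3 := hSW ⟨z, ib hj, hs (ib hi)⟩
    exact ⟨((hD _).2.2 _ k.2).trans (hC _).2.1, ((hC _).2.2 _ k.1).trans (hB _).2.1⟩

end Tower

section Span

variable {σ : Type*} [Fintype σ] {P : (σ → ℝ) → Prop}

theorem mem_span_int (hP : ∀ c, P c → ∀ φ : ℝ →+ ℝ, P fun s => φ (c s)) {c : σ → ℝ} (hc : P c) :
    c ∈ Submodule.span ℝ {z : σ → ℝ | P z ∧ ∀ s, ∃ k : ℤ, z s = k} := by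
  classical
  let b := Module.Basis.ofVectorSpace ℚ ℝ
  let T := Finset.univ.biUnion fun s => (b.repr (c s)).support
  have e : c = ∑ t ∈ T, b t • fun s => ((b.repr (c s) t : ℚ) : ℝ) := by
    funext s
    rw [Finset.sum_apply]
    conv_lhs => rw [← b.linearCombination_repr (c s), Finsupp.linearCombination_apply,
      Finsupp.sum_of_support_subset (s := T) _
        (Finset.subset_biUnion_of_mem (fun s => (b.repr (c s)).support) (Finset.mem_univ s))
        (fun i a => a • b i) (fun _ _ => zero_smul _ _)]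
    exact Finset.sum_congr rfl fun t _ => by rw [Rat.smul_def, mul_comm]; rfl
  rw [e]
  refine Submodule.sum_mem _ fun t _ => Submodule.smul_mem _ _ ?_
  set N : ℕ := ∏ s, (b.repr (c s) t).den with hN
  have hN0 : (N : ℝ) ≠ 0 := by
    exact_mod_cast Finset.prod_ne_zero_iff.2 fun s _ => (b.repr (c s) t).den_ne_zero
  let φ : ℝ →+ ℝ := (AddMonoidHom.mulLeft (N : ℝ)).comp
    ((Rat.castHom ℝ).toAddMonoidHom.comp (b.coord t).toAddMonoidHom)
  have hφ : ∀ r, φ r = N * ((b.repr r t : ℚ) : ℝ) := fun _ => rfl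
  have e2 : (fun s => ((b.repr (c s) t : ℚ) : ℝ)) = (N : ℝ)⁻¹ • fun s => φ (c s) := by
    funext s
    rw [Pi.smul_apply, hφ, smul_eq_mul, inv_mul_cancel_left₀ hN0]
  rw [e2]
  refine Submodule.smul_mem _ _ (Submodule.subset_span ⟨hP c hc φ, fun s => ?_⟩)
  obtain ⟨r, hr⟩ : (b.repr (c s) t).den ∣ N := Finset.dvd_prod_of_mem _ (Finset.mem_univ s)
  refine ⟨r * (b.repr (c s) t).num, ?_⟩
  have k : ((b.repr (c s) t).den : ℝ) * ((b.repr (c s) t : ℚ) : ℝ) = (b.repr (c s) t).num := by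
    exact_mod_cast Rat.den_mul_eq_num (b.repr (c s) t)
  show φ (c s) = _
  rw [hφ, hr]
  push_cast
  rw [← k]
  ring

/-- finitely many integer solutions span all real solutions -/
theorem exists_int_span (hP : ∀ c, P c → ∀ φ : ℝ →+ ℝ, P fun s => φ (c s)) :
    ∃ (m : ℕ) (z : Fin m → σ → ℝ), (∀ q, P (z q) ∧ ∀ s, ∃ k : ℤ, z q s = k) ∧
      ∀ c, P c → ∃ t : Fin m → ℝ, c = ∑ q, t q • z q := by
  obtain ⟨T, hT, e⟩ := (Submodule.fg_span_iff_fg_span_finset_subset (R := ℝ)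
    {z : σ → ℝ | P z ∧ ∀ s, ∃ k : ℤ, z s = k}).1 (IsNoetherian.noetherian _)
  refine ⟨T.card, fun q => T.equivFin.symm q, fun q => hT (T.equivFin.symm q).2, fun c hc => ?_⟩
  have h := mem_span_int hP hc
  rw [e, ← Subtype.range_coe (s := (T : Set (σ → ℝ))), Submodule.mem_span_range_iff_exists_fun] at h
  obtain ⟨t, ht⟩ := h
  exact ⟨fun q => t (T.equivFin.symm q), by
    rw [← ht]; exact (Equiv.sum_comp T.equivFin.symm fun i => t i • (i : σ → ℝ)).symm⟩

end Span

end Crest.Agent.X212.Weil93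
end

-- ▼ part X212/Weil93/Main

/-!
# X212 / Weil93, part Main (helper93): the curvature classes of lines span `H^2`

* `Nice`, `exists_nice` : chart balls;
* `Pu`, `Co`, `hc`, `ac` : partition of unity, constant 2-cocycles, their potentials;
* `exists_line` : the line of a cocycle with values in `2 π ℤ`;
* `exists_co` : the cocycle of a closed 2-form;
* `weil`, `weil_span`, `finite_h2`, `weil_basis`.
-/

set_option autoImplicit false
set_option linter.unusedSectionVars false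

open Set Filter Topology Function
open scoped ContDiff Manifold
open Crest.Agent.R208 Crest.Agent.R208.F Crest.Agent.R208.FI Crest.Agent.X212.Dr59
  Crest.Agent.X212.Pj41 Crest.Agent.X212.Line51

noncomputable section

namespace Crest.Agent.X212.Weil93

variable {E : Type*} [NormedAddCommGroup E] [NormedSpace ℝ E] [FiniteDimensional ℝ E]
  {H : Type*} [TopologicalSpace H] {I : ModelWithCorners ℝ E H}
  {M : Type*} [TopologicalSpace M] [ChartedSpace H M] [I.Boundaryless] [IsManifold I ∞ M]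

variable (I) in
/-- open, connected, no cohomology in positive degree -/
structure Nice (U : Set M) : Prop where
  op : IsOpen U
  pc : IsPreconnected U
  hz : ∀ k, HZ I (k + 1) U

theorem exists_nice (x : M) (O : Set M) (hO : O ∈ 𝓝 x) : ∃ U ∈ 𝓝 x, Nice I U ∧ U ⊆ O := by
  have h1 : ∀ᶠ u in 𝓝 (extChartAt I x x),
      u ∈ (extChartAt I x).target ∧ (extChartAt I x).symm u ∈ O :=
    Eventually.and ((isOpen_extChartAt_target x).mem_nhds (mem_extChartAt_target (I := I) x))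
      ((tendsto_chart_symm (I := I) x).eventually hO)
  obtain ⟨ε, ε0, hε⟩ := Metric.eventually_nhds_iff_ball.1 h1
  set s := Metric.ball (extChartAt I x x) ε
  have ho : IsOpen ((extChartAt I x).source ∩ extChartAt I x ⁻¹' s) :=
    isOpen_extChartAt_preimage' x Metric.isOpen_ball
  have hf : Mp 𝓘(ℝ, E) I s ((extChartAt I x).source ∩ extChartAt I x ⁻¹' s) (extChartAt I x).symm :=
    ⟨fun u hu => contMDiffAt_chart_symm (hε u hu).1, fun u hu =>
      ⟨(extChartAt I x).map_target (hε u hu).1, by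
        rwa [mem_preimage, (extChartAt I x).right_inv (hε u hu).1]⟩⟩
  have hg : Mp I 𝓘(ℝ, E) ((extChartAt I x).source ∩ extChartAt I x ⁻¹' s) s (extChartAt I x) :=
    ⟨fun _ hy => contMDiffAt_chart hy.1, fun _ hy => hy.2⟩
  have he : (extChartAt I x).source ∩ extChartAt I x ⁻¹' s = (extChartAt I x).symm '' s :=
    Subset.antisymm (fun y hy => ⟨_, hy.2, (extChartAt I x).left_inv hy.1⟩) hf.maps.image_subset
  refine ⟨_, ho.mem_nhds ⟨mem_extChartAt_source x, Metric.mem_ball_self ε0⟩, ⟨ho, ?_, fun k => ?_⟩,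
    fun y hy => ?_⟩
  · rw [he]
    exact (convex_ball _ _).isPreconnected.image _ fun u hu =>
      (hf.sm u hu).continuousAt.continuousWithinAt
  · exact (hz_star Metric.isOpen_ball (Metric.mem_ball_self ε0)
      ((convex_ball _ _).starConvex (Metric.mem_ball_self ε0))).of_inj _
        (st_inj_of_inv ho hf hg fun y hy => (extChartAt I x).left_inv hy.1)
  · have := (hε _ hy.2).2
    rwa [(extChartAt I x).left_inv hy.1] at this

theorem fsm_e0 {a : M → Ext E} {x : M} (h : SmAt I a x) : FSm I (fun y => e0 (a y)) x := by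
  refine (((e0L (E := E)).contDiff.contDiffAt.comp _ h).comp_contMDiffAt
    (contMDiffAt_chart (mem_extChartAt_source x))).congr_of_eventuallyEq ?_
  filter_upwards [extChartAt_source_mem_nhds (I := I) x] with y hy
  show _ = e0 (rp I x a (extChartAt I x y))
  rw [rp, pm_apply, e0_pb, (extChartAt I x).left_inv hy]

/-- an exact one-form is the differential of a function -/
theorem exists_df {U : Set M} (hU : IsOpen U) {a : M → Ext E} (h : Ex I U a) (hd : Dg 1 U a) :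
    ∃ f : M → ℝ, ∀ x ∈ U, FSm I f x ∧ df I f x = a x := by
  obtain ⟨b, h1, h2, h3⟩ := h.deg (k := 0) hd
  refine ⟨fun y => e0 (b y), fun x hx => ⟨fsm_e0 (h1 x hx), ?_⟩⟩
  rw [← dM_fn ((fsm_e0 (h1 x hx)).mdifferentiableAt ne0), ← h3 x hx]
  exact dM_congr (eventually_of_mem (hU.mem_nhds hx) fun y hy => (eq_alg_of_deg (h2 y hy)).symm)

theorem const_of_df {U : Set M} (hU : IsOpen U) (hc : IsPreconnected U) {f : M → ℝ}
    (h : ∀ x ∈ U, FSm I f x ∧ df I f x = 0) : ∃ r, ∀ x ∈ U, f x = r := by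
  obtain ⟨r, hr⟩ := Cl.const_of_preconnected (I := I) (a := fn E f) hU hc
    ⟨sm_fn fun x hx => (h x hx).1, dg_fn _, fun x hx => by
      rw [dM_fn ((h x hx).1.mdifferentiableAt ne0), (h x hx).2]⟩
  exact ⟨r, fun x hx => by simpa only [fn, e0_alg] using congrArg e0 (hr x hx)⟩

theorem df_congr {f g : M → ℝ} {x : M} (h : f =ᶠ[𝓝 x] g) : df I f x = df I g x := by
  rw [df, df, mf_congr h]

theorem df_three {f g h : M → ℝ} {x : M} (hf : FSm I f x) (hg : FSm I g x) (hh : FSm I h x) :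
    df I (f - g + h) x = df I f x - df I g x + df I h x := by
  rw [df_add (f := f - g) (hf.sub hg) hh, df_sub hf hg]

variable {ι : Type*} [Fintype ι] {V : ι → Set M} {ρ : ι → M → ℝ}

variable (I) in
/-- a smooth partition of unity -/
structure Pu (V : ι → Set M) (ρ : ι → M → ℝ) : Prop where
  op : ∀ i, IsOpen (V i)
  sm : ∀ i x, FSm I (ρ i) x
  ts : ∀ i, tsupport (ρ i) ⊆ V i
  one : ∀ x, ∑ i, ρ i x = 1

theorem exists_pu [T2Space M] [SigmaCompactSpace M] (hV : ∀ i, IsOpen (V i))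
    (hc : ∀ x, ∃ i, x ∈ V i) : ∃ ρ, Pu I V ρ := by
  obtain ⟨f, hf⟩ := SmoothPartitionOfUnity.exists_isSubordinate I isClosed_univ V hV
    fun x _ => mem_iUnion.2 (hc x)
  exact ⟨fun i => f i, hV, fun i x => (f i).contMDiff x, hf, fun x => by
    rw [← finsum_eq_sum_of_fintype]; exact f.sum_eq_one (mem_univ x)⟩

theorem Pu.sum_eq (h : Pu I V ρ) {W : Type*} [AddCommGroup W] [Module ℝ W] {x : M} {F : ι → W}
    {w : W} (e : ∀ m, x ∈ V m → F m = w) : ∑ m, ρ m x • F m = w := by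
  rw [← one_smul ℝ w, ← h.one x, Finset.sum_smul]
  refine Finset.sum_congr rfl fun m _ => ?_
  by_cases hm : ρ m x = 0
  · rw [hm, zero_smul, zero_smul]
  · rw [e m (h.ts m (subset_tsupport _ hm))]

theorem Pu.cov (h : Pu I V ρ) (x : M) : ∃ i, x ∈ V i := by
  by_contra hx
  exact one_ne_zero ((h.sum_eq (F := fun _ => (1 : ℝ)) fun _ _ => rfl).symm.trans
    (h.sum_eq fun m hm => (hx ⟨m, hm⟩).elim))

theorem Pu.fsm (h : Pu I V ρ) {x : M} {e : ι → M → ℝ} (he : ∀ m, x ∈ V m → FSm I (e m) x) :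
    FSm I (fun y => ∑ m, ρ m y • e m y) x := by
  refine FSm.sum' fun m _ => ?_
  by_cases hm : x ∈ tsupport (ρ m)
  · exact (h.sm m x).smul (he m (h.ts m hm))
  · refine (contMDiffAt_const (c := (0 : ℝ))).congr_of_eventuallyEq ?_
    filter_upwards [notMem_tsupport_iff_eventuallyEq.1 hm] with y hy
    rw [hy, Pi.zero_apply, zero_smul]

/-- constant 2-cocycles of the cover -/
def Co (V : ι → Set M) (c : ι × ι × ι → ℝ) : Prop :=
  ∀ m i j k x, x ∈ V m → x ∈ V i → x ∈ V j → x ∈ V k →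
    c (m, j, k) - c (m, i, k) + c (m, i, j) = c (i, j, k)

theorem Co.map {c : ι × ι × ι → ℝ} (h : Co V c) (φ : ℝ →+ ℝ) : Co V fun s => φ (c s) :=
  fun m i j k x a b d e => by simp only [← h m i j k x a b d e, map_add, map_sub]

/-- a smooth 1-cochain with coboundary `c` -/
def hc (ρ : ι → M → ℝ) (c : ι × ι × ι → ℝ) (i j : ι) (x : M) : ℝ := ∑ m, ρ m x • c (m, i, j)

variable (I) in
/-- the local potentials -/
def ac (ρ : ι → M → ℝ) (c : ι × ι × ι → ℝ) (i : ι) : M → Ext E :=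
  ∑ m, ∑ k, c (k, m, i) • ρ m • df I (ρ k)

variable {c : ι × ι × ι → ℝ}

theorem Pu.fsm_hc (h : Pu I V ρ) (i j : ι) (x : M) : FSm I (hc ρ c i j) x :=
  h.fsm (e := fun m _ => c (m, i, j)) fun _ _ => contMDiffAt_const

theorem Pu.df_hc (h : Pu I V ρ) (i j : ι) (x : M) :
    df I (hc ρ c i j) x = ∑ k, c (k, i, j) • df I (ρ k) x := by
  have e : fn E (hc ρ c i j) = ∑ k, c (k, i, j) • fn E (ρ k) := by
    funext y
    simp only [fn, hc, Finset.sum_apply, Pi.smul_apply, smul_eq_mul, mul_comm (ρ _ y),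
      Algebra.algebraMap_eq_smul_one, Finset.sum_smul, mul_smul]
  rw [← dM_fn ((h.fsm_hc i j x).mdifferentiableAt ne0), e,
    dM_sum ne0 fun k _ => (cAt_fn le_rfl (h.sm k x)).smul _]
  exact Finset.sum_congr rfl fun k _ => by
    rw [dM_smul ne0 _ (cAt_fn le_rfl (h.sm k x)), dM_fn ((h.sm k x).mdifferentiableAt ne0)]

theorem Pu.ac_apply (h : Pu I V ρ) (i : ι) (x : M) :
    ac I ρ c i x = ∑ m, ρ m x • df I (hc ρ c m i) x := by
  simp only [ac, Finset.sum_apply, Pi.smul_apply', Pi.smul_apply, h.df_hc, Finset.smul_sum,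
    smul_comm (ρ _ x)]

theorem Pu.sm_ac (h : Pu I V ρ) (i : ι) (U : Set M) : Sm I U (ac I ρ c i) :=
  sm_sum fun m _ => sm_sum fun k _ =>
    (Sm.fsmul (fun x _ => h.sm m x) (sm_df fun x _ => h.sm k x)).smul _

theorem dg_ac (i : ι) (U : Set M) : Dg 1 U (ac I ρ c i) :=
  dg_sum fun _ _ => dg_sum fun _ _ => ((dg_df _).fsmul _).smul _

theorem ac_sum {κ : Type*} [Fintype κ] (t : κ → ℝ) (z : κ → ι × ι × ι → ℝ) (i : ι) :
    ac I ρ (∑ q, t q • z q) i = ∑ q, t q • ac I ρ (z q) i := by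
  simp only [ac, Finset.sum_apply, Pi.smul_apply, Finset.sum_smul, Finset.smul_sum, smul_assoc]
  exact (Finset.sum_congr rfl fun _ _ => Finset.sum_comm).trans Finset.sum_comm

theorem Pu.hc_co (h : Pu I V ρ) (hco : Co V c) {i j k : ι} {x : M} (hi : x ∈ V i) (hj : x ∈ V j)
    (hk : x ∈ V k) : hc ρ c j k x - hc ρ c i k x + hc ρ c i j x = c (i, j, k) := by
  rw [← h.sum_eq (x := x) fun m hm => hco m i j k x hm hi hj hk]
  simp only [hc, smul_add, smul_sub, Finset.sum_add_distrib, Finset.sum_sub_distrib]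

theorem df_of_co (hV : ∀ i, IsOpen (V i)) {e : ι → ι → M → ℝ} {i j k : ι} {x : M} {r : ℝ}
    (hi : x ∈ V i) (hj : x ∈ V j) (hk : x ∈ V k) (h1 : FSm I (e j k) x) (h2 : FSm I (e i k) x)
    (h3 : FSm I (e i j) x)
    (h : ∀ y, y ∈ V i → y ∈ V j → y ∈ V k → e j k y - e i k y + e i j y = r) :
    df I (e i k) x - df I (e i j) x = df I (e j k) x := by
  have k0 : df I (e j k - e i k + e i j) x = 0 := df_eq_zero (c := r) (by
    filter_upwards [(hV i).mem_nhds hi, (hV j).mem_nhds hj, (hV k).mem_nhds hk] with y a b d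
    exact h y a b d)
  rw [df_three h1 h2 h3] at k0
  rw [← sub_eq_zero, ← neg_eq_zero, ← k0]
  abel

theorem Pu.ac_sub (h : Pu I V ρ) (hco : Co V c) {i j : ι} {x : M} (hi : x ∈ V i) (hj : x ∈ V j) :
    ac I ρ c j x = ac I ρ c i x + df I (hc ρ c i j) x := by
  rw [← sub_eq_iff_eq_add', h.ac_apply, h.ac_apply, ← Finset.sum_sub_distrib]
  simp only [← smul_sub]
  exact h.sum_eq fun m hm => df_of_co h.op hm hi hj (h.fsm_hc _ _ _) (h.fsm_hc _ _ _)
    (h.fsm_hc _ _ _) fun y => h.hc_co hco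

/-- the line of a cocycle with values in `2 π ℤ` -/
theorem Pu.exists_line [T2Space M] [SigmaCompactSpace M] (h : Pu I V ρ) (hco : Co V c)
    (hz : ∀ s, ∃ k : ℤ, c s = k * (2 * Real.pi)) :
    ∃ G : Ln E M (Σ _ : ι, Unit), G.On I univ ∧ ∀ i, ∀ x ∈ V i, G.F I x = dM I (ac I ρ c i) x := by
  obtain ⟨G, s, h1, h2, -⟩ := exists_cech h.op h.cov (fun i => h.sm_ac (c := c) i _)
    (fun i => dg_ac i _) (g := fun i j x => Circle.exp (hc ρ c i j x))
    (fun i j x _ _ => (contMDiff_circleExp _).comp x (h.fsm_hc i j x))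
    (fun i j k x hi hj hk => by
      obtain ⟨r, hr⟩ := hz (i, j, k)
      rw [← Circle.exp_add, Circle.exp_eq_exp]
      exact ⟨r, by rw [← hr, ← h.hc_co hco hi hj hk]; ring⟩)
    fun i j x hi hj => by rw [ang_exp (h.fsm_hc i j x), h.ac_sub hco hi hj]
  exact ⟨G, h1, fun i x hx => (h2 i).F_fr (h.op i) (h1.sa.mono (subset_univ _)) hx⟩

/-- the cocycle of a closed two-form -/
theorem Pu.exists_co (h : Pu I V ρ) {D C B : ι → Set M}
    (hN : ∀ i, Nice I (D i) ∧ Nice I (C i) ∧ Nice I (B i)) (hD : ∀ i, V i ⊆ D i)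
    (hT : ∀ i j, (V i ∩ V j).Nonempty → D i ⊆ C j ∧ C i ⊆ B j) {w : M → Ext E}
    (hw : Cl I 2 univ w) : ∃ c β, Co V c ∧ Sm I univ β ∧
      ∀ i, ∀ x ∈ V i, dM I β x = w x - dM I (ac I ρ c i) x := by
  choose α a1 a2 a3 using fun i =>
    ((hN i).2.2.hz 1 w (hw.mono (subset_univ _))).deg (k := 1) (hw.dg.mono (subset_univ _))
  have hf : ∀ i j, ∃ f : M → ℝ, (V i ∩ V j).Nonempty →
      ∀ x ∈ C i, FSm I f x ∧ df I f x = α j x - α i x := fun i j => by
    by_cases hn : (V i ∩ V j).Nonempty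
    · have s1 := (hT i j hn).2
      have s2 := (hT i i (hn.left.mono fun _ h => ⟨h, h⟩)).2
      have k : Cl I 1 (C i) (α j - α i) :=
        ⟨((a1 j).mono s1).sub ((a1 i).mono s2), ((a2 j).mono s1).sub ((a2 i).mono s2), fun x hx => by
          rw [dM_sub ne0 (a1 j x (s1 hx)) (a1 i x (s2 hx)), a3 j x (s1 hx), a3 i x (s2 hx), sub_self]⟩
      obtain ⟨f, hf⟩ := exists_df (hN i).2.1.op ((hN i).2.1.hz 0 _ k) k.dg
      exact ⟨f, fun _ => hf⟩
    · exact ⟨0, fun h' => (hn h').elim⟩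
  choose f hf using hf
  have hVC : ∀ i, V i ⊆ C i := fun i x hx => (hT i i ⟨x, hx, hx⟩).1 (hD i hx)
  have hf' : ∀ i j x, x ∈ V i → x ∈ V j → FSm I (f i j) x ∧ df I (f i j) x = α j x - α i x :=
    fun i j x hi hj => hf i j ⟨x, hi, hj⟩ x (hVC i hi)
  have hr : ∀ s : ι × ι × ι, ∃ r : ℝ, ∀ x, x ∈ V s.1 → x ∈ V s.2.1 → x ∈ V s.2.2 →
      f s.2.1 s.2.2 x - f s.1 s.2.2 x + f s.1 s.2.1 x = r := fun ⟨i, j, k⟩ => by
    by_cases hn : ∃ y, y ∈ V i ∧ y ∈ V j ∧ y ∈ V k
    · obtain ⟨y, hi, hj, hk⟩ := hn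
      obtain ⟨r, hr⟩ := const_of_df (I := I) (f := f j k - f i k + f i j) (hN i).1.op (hN i).1.pc
        fun x hx => by
          have b1 := hf j k ⟨y, hj, hk⟩ x ((hT i j ⟨y, hi, hj⟩).1 hx)
          have b2 := hf i k ⟨y, hi, hk⟩ x ((hT i i ⟨y, hi, hi⟩).1 hx)
          have b3 := hf i j ⟨y, hi, hj⟩ x ((hT i i ⟨y, hi, hi⟩).1 hx)
          refine ⟨(b1.1.sub b2.1).add b3.1, ?_⟩
          rw [df_three b1.1 b2.1 b3.1, b1.2, b2.2, b3.2]
          abel
      exact ⟨r, fun x hx _ _ => hr x (hD i hx)⟩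
    · exact ⟨0, fun x hi hj hk => (hn ⟨x, hi, hj, hk⟩).elim⟩
  choose c hc' using hr
  have hco : Co V c := fun m i j k x hm hi hj hk => by
    rw [← hc' (m, j, k) x hm hj hk, ← hc' (m, i, k) x hm hi hk, ← hc' (m, i, j) x hm hi hj,
      ← hc' (i, j, k) x hi hj hk]
    ring
  let u : ι → M → ℝ := fun i y => ∑ m, ρ m y • (f m i - hc ρ c m i) y
  have hu : ∀ i, ∀ x ∈ V i, FSm I (u i) x := fun i x hi =>
    h.fsm fun m hm => (hf' m i x hm hi).1.sub (h.fsm_hc m i x)
  have hu2 : ∀ i j x, x ∈ V i → x ∈ V j → (u j - u i) x = (f i j - hc ρ c i j) x :=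
    fun i j x hi hj => by
      simp only [u, Pi.sub_apply, ← Finset.sum_sub_distrib, ← smul_sub]
      refine h.sum_eq fun m hm => ?_
      have b1 := hc' (m, i, j) x hm hi hj
      have b2 := h.hc_co hco hm hi hj
      dsimp only at b1
      linarith
  obtain ⟨β, hβ⟩ := exists_patch h.op h.cov (fun i => α i - ac I ρ c i - df I (u i))
    fun i j x hi hj => by
      have b : df I (u j - u i) x = df I (f i j - hc ρ c i j) x := df_congr (by
        filter_upwards [(h.op i).mem_nhds hi, (h.op j).mem_nhds hj] with y a b using hu2 i j y a b)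
      rw [df_sub (hu j x hj) (hu i x hi), df_sub (hf' i j x hi hj).1 (h.fsm_hc i j x),
        (hf' i j x hi hj).2, sub_eq_iff_eq_add] at b
      simp only [Pi.sub_apply]
      rw [h.ac_sub hco hi hj, b]
      abel
  have hB : ∀ i, V i ⊆ B i := fun i x hx => (hT i i ⟨x, hx, hx⟩).2 (hVC i hx)
  have s1 : ∀ i, ∀ x ∈ V i, SmAt I (α i - ac I ρ c i) x := fun i x hx =>
    (a1 i x (hB i hx)).sub (h.sm_ac i univ x (mem_univ x))
  refine ⟨c, β, hco, fun x _ => ?_, fun i x hx => ?_⟩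
  · obtain ⟨i, hi⟩ := h.cov x
    exact ((s1 i x hi).sub (smAt_df (hu i x hi))).congr (hβ i x hi)
  · rw [dM_congr (hβ i x hx), dM_sub ne0 (s1 i x hx) (smAt_df (hu i x hx)), dM_df (hu i x hx),
      sub_zero, dM_sub ne0 (a1 i x (hB i hx)) (h.sm_ac i univ x (mem_univ x)), a3 i x (hB i hx)]

/-- index type of the lines -/
abbrev Kn (n : ℕ) : Type := Σ _ : Fin n, Unit

variable [T2Space M] [CompactSpace M]

variable (I M) in
/-- **WEIL** : every closed two-form is a real combination of curvature forms up to an exact form -/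
theorem weil : ∃ (n m : ℕ) (L : Fin m → Ln E M (Kn n)), (∀ q, (L q).On I univ) ∧
    ∀ w, Cl I 2 univ w → ∃ t : Fin m → ℝ, Ex I univ (w - ∑ q, t q • (L q).F I) := by
  obtain ⟨n, V, D, C, B, h1, h2, h3, h4, h5⟩ := exists_tower (exists_nice (I := I) (M := M))
  obtain ⟨ρ, h⟩ := exists_pu (I := I) h1 h2
  obtain ⟨m, z, hz, hs⟩ := exists_int_span (P := Co V) fun _ hc φ => hc.map φ
  choose L l1 l2 using fun q => h.exists_line (c := (2 * Real.pi) • z q)
    ((hz q).1.map (AddMonoidHom.mulLeft (2 * Real.pi))) fun s =>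
      ((hz q).2 s).imp fun k hk => by rw [Pi.smul_apply, hk, smul_eq_mul, mul_comm]
  refine ⟨n, m, L, l1, fun w hw => ?_⟩
  obtain ⟨c, β, c1, c2, c3⟩ := h.exists_co h3 h4 h5 hw
  obtain ⟨t, rfl⟩ := hs c c1
  refine ⟨fun q => t q / (2 * Real.pi), β, c2, fun x _ => ?_⟩
  obtain ⟨i, hi⟩ := h2 x
  have e : ∑ q, t q • z q = ∑ q, (t q / (2 * Real.pi)) • (2 * Real.pi) • z q :=
    Finset.sum_congr rfl fun q _ => by rw [smul_smul, div_mul_cancel₀ _ Real.two_pi_pos.ne']
  rw [c3 i x hi, e, ac_sum, dM_sum ne0 fun q _ => (h.sm_ac i univ x (mem_univ x)).smul _,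
    Pi.sub_apply, Finset.sum_apply]
  exact congrArg _ (Finset.sum_congr rfl fun q _ => by
    rw [dM_smul ne0 _ (h.sm_ac i univ x (mem_univ x)), Pi.smul_apply, l2 q i x hi])

variable (I M) in
theorem weil_span : ∃ (n m : ℕ) (L : Fin m → Ln E M (Kn n)) (h : ∀ q, (L q).On I univ),
    Submodule.span ℝ (range fun q => ((h q).cl_F isOpen_univ).cls) = ⊤ := by
  obtain ⟨n, m, L, h, hs⟩ := weil I M
  refine ⟨n, m, L, h, eq_top_iff.2 fun x _ => ?_⟩
  obtain ⟨w, hw, rfl⟩ := exists_cls x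
  obtain ⟨t, ht⟩ := hs w hw
  have k := fun q => ((h q).cl_F isOpen_univ).smul (t q)
  rw [(cls_eq (h' := cl_sum fun q (_ : q ∈ Finset.univ) => k q)).2 ht, cls_sum k]
  exact Submodule.sum_mem _ fun q _ => by
    rw [cls_smul _ ((h q).cl_F isOpen_univ)]
    exact Submodule.smul_mem _ _ (Submodule.subset_span ⟨q, rfl⟩)

instance finite_h2 : Module.Finite ℝ (HR I 2 (univ : Set M)) := by
  obtain ⟨n, m, L, h, hs⟩ := weil_span I M
  exact ⟨hs ▸ Submodule.fg_span (finite_range _)⟩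

variable (I M) in
/-- a basis of `H^2` made of lines -/
theorem weil_basis : ∃ (n m : ℕ) (L : Fin m → Ln E M (Kn n)) (h : ∀ q, (L q).On I univ)
    (b : Module.Basis (Fin m) ℝ (HR I 2 (univ : Set M))),
    ∀ q, b q = ((h q).cl_F isOpen_univ).cls := by
  obtain ⟨n, m, L, h, hs⟩ := weil_span I M
  obtain ⟨κ, a, ha, h1, h2⟩ := exists_linearIndependent' ℝ fun q => ((h q).cl_F isOpen_univ).cls
  have : Finite κ := Finite.of_injective a ha
  obtain ⟨r, ⟨e⟩⟩ := Finite.exists_equiv_fin κ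
  exact ⟨n, r, fun q => L (a (e.symm q)), fun q => h _,
    (Module.Basis.mk h2 (h1.trans hs).ge).reindex e, fun q => by simp⟩

end Crest.Agent.X212.Weil93
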